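import Vale.Agent.P088.R2.H794.RowLog
import Vale.Agent.P088.R2.H870.BI
import Vale.Agent.P088.R2.H311.V.Ex2
import Vale.Agent.P088.R2.H833.V.Hc
import Vale.Agent.P088.R2.H904.V.WS
import Vale.Agent.P088.R2.H901.WD
import Vale.Agent.P088.R2.H338.V.OV
import Vale.Agent.P088.R2.H605.V.Kla
import Vale.Agent.P088.R2.H696.V.KlbR
import Vale.Agent.P088.R2.H87.V.KLI
import Vale.Agent.P088.R2.H359.RowKey
import Vale.Agent.P088.R2.H644.QW
import Vale.Agent.P088.R2.H935.V.QB
import Vale.Agent.P088.R2.H561.V.MeFin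
import Vale.Agent.P088.R2.H960.DV
import Vale.Agent.P088.R2.H437.Ne
import Vale.Agent.P088.R2.H437.Ko
import Vale.Agent.P088.R2.H341.V.GE3
import Vale.Agent.P088.R2.H341.V.JR3
import Vale.Agent.P088.R2.H43.Peq
import Vale.Agent.P088.R2.H238.V.CG
import Vale.Agent.P088.R2.H238.V.RigGR
import Vale.Agent.P088.R2.H593.V.RGAll
import Vale.Agent.P088.R2.H820.SolG
import Vale.Agent.P088.R2.H961.G.Top
import Vale.Agent.P088.R2.H16.Estg
import Vale.Agent.P088.R2.H901.VecP
import Vale.Agent.P088.R2.H948.G.Row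

/-!
# P088, two arbitrary pairs near a flat one: the closed rigidity theorem

All the rows of `H551/V/Spec` are put together.
-/

noncomputable section

namespace Vale.Agent.P088.R2.H455.V

open Vale.Agent.P088.PJ

/-- The strong scalar estimate. -/
theorem rowESTs : HY.H16.RowESTs :=
  HY.H16.rowESTs HY.rowEID (HY.rowEQB HY.rowEBD) (HY.H856.rowEQC HY.rowEBD)
    (HY.rowEQX HY.rowEBD) HY.rowEGAP HY.rowEOS
    (HY.rowEN1 HY.rowEOS) (HY.rowEN2 HY.rowEGAP HY.rowEIK (HY.rowEQB HY.rowEBD))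

theorem rowESTG : HY.RowESTG := HY.H16.rowESTG rowESTs HY.rowEGAP

theorem rowSOLG : HY.RowSOLG := R2.H820.rowSOLG rowESTG R2.H961.rowTOPG HY.rowHYP

theorem rowINPG : HY.RowINPG := HY.rowINPG

theorem rowORTG : HY.RowORTG := HY.rowORTG rowINPG

theorem rowWS : RowWS := H904.rowWS rowSOLG H833.rowHC

theorem rowWD : RowWD := H901.rowWD rowINPG rowWS

theorem rowKEY : RowKEY :=
  H359.rowKEY rowBI (H605.rowKLA H311.rowEX) rowKLB rowKLI rowWD (H338.rowOV rowORTG)

theorem rowQW : RowQW := R2.H644.rowQW rowBI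

theorem rowME : RowME := H561.rowME rowQW

theorem rowDV : RowDV := Vale.Agent.P088.PJ.rowDV rowQW rowME

theorem rowGE : RowGE :=
  H341.rowGE rowME rowDV (H437.rowNE HY.H794.rowDIR) H437.rowKO

theorem rowJR : RowJR := H341.rowJR rowKEY rowGE (H935.rowQB rowBI) HY.rowITP

theorem rowCG : RowCG := H238.rowCG rowJR Vale.Agent.P088.H43.rowPEQ

/-- **Joint rigidity of two arbitrary pairs** close to the flat one. -/
theorem rowRG : RowRG := H593.rg_of_cg rowCG

/-- The form used for manifolds. -/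
theorem rigGR {n N : ℕ} (hn : 3 ≤ n) (hN : 1 ≤ N) :
    ∃ k : ℕ, ∀ B : ℝ, 0 < B → ∃ ε > 0, R2.H455.G.RigGR n N k B ε :=
  R2.H238.V.rigGR rowRG hn hN

end Vale.Agent.P088.R2.H455.V
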